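import Vale.Agent.P095.Amen.Compare.Alg

/-!
# P095 Compare: the basic properties of `LeIn` and `Dim`
-/

namespace Vale.Agent.P095.Amen

open scoped CStarAlgebra
open Vale.Agent.P101.KR

noncomputable section

variable {F : Type} [CStarAlgebra F] {s t : Set F} {B B' : StarSubalgebra ℂ F}

theorem PosIn.sqLe {u : F} (h : PosIn B u) : SqLe 0 u := by
  obtain ⟨-, c, -, hc⟩ := h
  exact ⟨c, by rw [sub_zero, hc]⟩

theorem PosIn.mono {u : F} (hB : B ≤ B') (h : PosIn B u) : PosIn B' u :=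
  ⟨hB h.1, h.2.imp fun _ hc => ⟨hB hc.1, hc.2⟩⟩

theorem PosIn.one : PosIn B (1 : F) := ⟨one_mem B, 1, one_mem B, by simp⟩

theorem PosIn.zero : PosIn B (0 : F) := ⟨zero_mem B, 0, zero_mem B, by simp⟩

theorem LeIn.mono {n m : ℕ} {u : Fin n → F} {v : Fin m → F} (hB : B ≤ B') (h : LeIn B u v) :
    LeIn B' u v := fun ε hε => (h ε hε).imp fun _ hx => ⟨fun j i => hB (hx.1 j i), hx.2⟩

theorem sqLe_iff [PartialOrder F] [StarOrderedRing F] {a b : F} : SqLe a b ↔ a ≤ b := by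
  constructor
  · rintro ⟨c, hc⟩
    exact sub_nonneg.1 (hc ▸ star_mul_self_nonneg c)
  · intro h
    refine ⟨CFC.sqrt (b - a), ?_⟩
    rw [(CFC.sqrt_nonneg (b - a)).isSelfAdjoint.star_eq, CFC.sqrt_mul_sqrt_self _ (sub_nonneg.2 h)]

theorem posIn_coe [PartialOrder (Cl s)] [StarOrderedRing (Cl s)] {a : Cl s} (ha : 0 ≤ a) :
    PosIn (Cl s) (a : F) := by
  refine ⟨a.2, (CFC.sqrt a : Cl s), (CFC.sqrt a).2, ?_⟩
  rw [← StarMemClass.coe_star, ← MulMemClass.coe_mul, (CFC.sqrt_nonneg a).isSelfAdjoint.star_eq,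
    CFC.sqrt_mul_sqrt_self a ha]

theorem PosIn.exists_coe [PartialOrder (Cl s)] [StarOrderedRing (Cl s)] {u : F}
    (h : PosIn (Cl s) u) : ∃ a : Cl s, 0 ≤ a ∧ (a : F) = u := by
  obtain ⟨hu, c, hc, huc⟩ := h
  exact ⟨star ⟨c, hc⟩ * ⟨c, hc⟩, star_mul_self_nonneg _, by simp [huc]⟩

/-- Families in `Cl s`: `LeIn` is subequivalence inside `Cl s`. -/
theorem leIn_iff_sub {n m : ℕ} {u : Fin n → Cl s} {v : Fin m → Cl s} :
    LeIn (Cl s) (fun i => (u i : F)) (fun j => (v j : F)) ↔ Cuntz.Sub u v := by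
  classical
  constructor
  · intro h ε hε
    obtain ⟨x, hx, hb⟩ := h ε hε
    refine ⟨fun j i => ⟨x j i, hx j i⟩, fun i k => ?_⟩
    refine le_of_eq_of_le ?_ (hb i k)
    rw [← norm_coe]
    split_ifs <;> simp
  · intro h ε hε
    obtain ⟨x, hb⟩ := h ε hε
    refine ⟨fun j i => x j i, fun j i => (x j i).2, fun i k => ?_⟩
    refine le_of_eq_of_le ?_ (hb i k)
    conv_rhs => rw [← norm_coe]
    split_ifs <;> simp

theorem leIn_one_iff {a b : Cl s} :
    LeIn (Cl s) ![(a : F)] ![(b : F)] ↔ Cuntz.Le a b := by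
  rw [show (![(a : F)]) = fun i => ((![a] : Fin 1 → Cl s) i : F) from funext fun i => by
      fin_cases i; rfl,
    show (![(b : F)]) = fun i => ((![b] : Fin 1 → Cl s) i : F) from funext fun i => by
      fin_cases i; rfl, leIn_iff_sub]
  have e : ∀ a : Cl s, Cuntz.Sub (![a] : Fin 1 → Cl s) (fun _ : Unit => a) ∧
      Cuntz.Sub (fun _ : Unit => a) (![a] : Fin 1 → Cl s) := fun a =>
    ⟨.of_equiv finOneEquiv (fun i => by fin_cases i; rfl),
      .of_equiv finOneEquiv.symm (fun i => rfl)⟩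
  exact ⟨fun h => (e a).2.trans (h.trans (e b).1), fun h => (e a).1.trans (h.trans (e b).2)⟩

namespace Dim

variable (d : Dim (Cl s))

/-- A state of a larger subalgebra, restricted. -/
def restrict {B B' : StarSubalgebra ℂ F} (d : Dim B') (h : B ≤ B') : Dim B where
  d := d.d
  one := d.one
  mono u v hu hv hle := d.mono u v (fun i => (hu i).mono h) (fun j => (hv j).mono h) (hle.mono h)

theorem mono_one {u v : F} (hu : PosIn B u) (hv : PosIn B v) (d : Dim B)
    (h : LeIn B ![u] ![v]) : d.d u ≤ d.d v := by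
  simpa using d.mono ![u] ![v] (fun i => by fin_cases i; exact hu) (fun i => by fin_cases i; exact hv) h

theorem nonneg {u : F} (hu : PosIn B u) (d : Dim B) : 0 ≤ d.d u := by
  simpa using d.mono (![] : Fin 0 → F) ![u] (fun i => i.elim0) (fun i => by fin_cases i; exact hu)
    fun ε _ => ⟨fun _ i => i.elim0, fun _ i => i.elim0, fun i => i.elim0⟩

theorem zero (d : Dim B) : d.d 0 = 0 := by
  refine le_antisymm ?_ (d.nonneg PosIn.zero)
  simpa using d.mono ![(0 : F)] (![] : Fin 0 → F) (fun i => by fin_cases i; exact PosIn.zero)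
    (fun i => i.elim0) fun ε hε => ⟨fun i _ => i.elim0, fun i => i.elim0, fun i i' => by
      fin_cases i; fin_cases i'; simpa using hε.le⟩

theorem le_sum {m : ℕ} {u : F} {v : Fin m → F} (hu : PosIn B u) (hv : ∀ j, PosIn B (v j))
    (d : Dim B) (h : LeIn B ![u] v) : d.d u ≤ ∑ j, d.d (v j) := by
  simpa using d.mono ![u] v (fun i => by fin_cases i; exact hu) hv h

/-- `x* v x` is no larger than `v`. -/
theorem conj_le {x v : F} (hx : x ∈ B) (hv : PosIn B v) (d : Dim B) :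
    d.d (star x * v * x) ≤ d.d v := by
  refine d.mono_one ?_ hv fun ε hε => ⟨fun _ _ => x, fun _ _ => hx, fun i i' => by
    fin_cases i; fin_cases i'; simpa using hε.le⟩
  obtain ⟨c, hc, rfl⟩ := hv.2
  exact ⟨mul_mem (mul_mem (star_mem hx) hv.1) hx, c * x, mul_mem hc hx, by
    simp [mul_assoc]⟩

/-- Subadditivity. -/
theorem sum_le {m : ℕ} {v : Fin m → F} (hs : PosIn B (∑ j, v j)) (hv : ∀ j, PosIn B (v j))
    (d : Dim B) : d.d (∑ j, v j) ≤ ∑ j, d.d (v j) :=
  d.le_sum hs hv fun ε hε => ⟨fun _ _ => 1, fun _ _ => one_mem B, fun i i' => by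
    fin_cases i; fin_cases i'; simpa using hε.le⟩

theorem add_le {u v : F} (hu : PosIn B u) (hv : PosIn B v) (huv : PosIn B (u + v)) (d : Dim B) :
    d.d (u + v) ≤ d.d u + d.d v := by
  simpa using sum_le (v := ![u, v]) (by simpa using huv)
    (fun j => by fin_cases j <;> assumption) d

/-- Monotonicity for the order. -/
theorem mono_sqLe {u v : F} (hu : PosIn (Cl s) u) (hv : PosIn (Cl s) v) (h : SqLe u v) :
    d.d u ≤ d.d v := by
  let _ := CStarAlgebra.spectralOrder (Cl s)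
  let _ := CStarAlgebra.spectralOrderedRing (Cl s)
  refine d.mono_one hu hv ?_
  obtain ⟨a, ha, rfl⟩ := hu.exists_coe
  obtain ⟨b, -, rfl⟩ := hv.exists_coe
  obtain ⟨c, hc⟩ := exists_sub_eq h
  exact leIn_one_iff.2 (Cuntz.le_of_le ha (sub_nonneg.1 (hc ▸ star_mul_self_nonneg c)))

/-- `u ≤ C v` gives `d u ≤ d v`. -/
theorem mono_smul {u v : F} (hu : PosIn (Cl s) u) (hv : PosIn (Cl s) v) {C : ℝ} (hC : 0 ≤ C)
    (h : SqLe u (C • v)) : d.d u ≤ d.d v := by
  obtain ⟨c, hc, hvc⟩ := hv.2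
  have hm : C • v ∈ Cl s := by
    rw [← Complex.coe_smul]; exact SMulMemClass.smul_mem _ hv.1
  have hr : Real.sqrt C • (1 : F) ∈ Cl s := by
    rw [← Complex.coe_smul]; exact SMulMemClass.smul_mem _ (one_mem _)
  have hp : C • v = star (Real.sqrt C • (1 : F)) * v * (Real.sqrt C • (1 : F)) := by
    simp [smul_smul, Real.mul_self_sqrt hC]
  refine (d.mono_sqLe hu ⟨hm, c * (Real.sqrt C • (1 : F)), mul_mem hc hr, ?_⟩ h).trans ?_
  · rw [hp, hvc]; simp
  · rw [hp]; exact d.conj_le hr hv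

theorem le_one {u : F} (hu : PosIn (Cl s) u) : d.d u ≤ 1 := by
  let _ := CStarAlgebra.spectralOrder F
  let _ := CStarAlgebra.spectralOrderedRing F
  rw [← d.one]
  refine d.mono_smul hu PosIn.one (norm_nonneg u) (sqLe_iff.2 ?_)
  rw [← Algebra.algebraMap_eq_smul_one]
  exact (sqLe_iff.1 hu.sqLe).isSelfAdjoint.le_algebraMap_norm_self

/-- Additivity on orthogonal elements. -/
theorem add_eq {u v : F} (hu : PosIn (Cl s) u) (hv : PosIn (Cl s) v) (h : u * v = 0) :
    d.d (u + v) = d.d u + d.d v := by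
  let _ := CStarAlgebra.spectralOrder (Cl s)
  let _ := CStarAlgebra.spectralOrderedRing (Cl s)
  obtain ⟨a, ha, rfl⟩ := hu.exists_coe
  obtain ⟨b, hb, rfl⟩ := hv.exists_coe
  have hab : PosIn (Cl s) ((a : F) + b) := posIn_coe (add_nonneg ha hb)
  refine le_antisymm (d.add_le hu hv hab) ?_
  have hle : LeIn (Cl s) ![(a : F), b] ![((a + b : Cl s) : F)] := by
    rw [show (![(a : F), b]) = fun i => ((![a, b] : Fin 2 → Cl s) i : F) from funext fun i => by
        fin_cases i <;> rfl,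
      show (![((a + b : Cl s) : F)]) = fun i => ((![a + b] : Fin 1 → Cl s) i : F) from
        funext fun i => by fin_cases i; rfl, leIn_iff_sub, ← Cuntz.cls_le_cls]
    convert Cuntz.single_add_le ha hb (Subtype.ext h) using 1
    · rw [← Cuntz.cls_elim]
      simp [Cuntz.cls, ← Finset.univ_disjSum_univ, Finset.disjSum, Multiset.disjSum]
      rfl
    · simp [Cuntz.cls]
      rfl
  simpa using d.mono _ _ (fun i => by fin_cases i <;> assumption)
    (fun i => by fin_cases i; exact hab) hle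

theorem sum_eq {ι : Type*} (I : Finset ι) {v : ι → F} (hv : ∀ i, PosIn (Cl s) (v i))
    (h : ∀ i ∈ I, ∀ j ∈ I, i ≠ j → v i * v j = 0) :
    PosIn (Cl s) (∑ i ∈ I, v i) ∧ d.d (∑ i ∈ I, v i) = ∑ i ∈ I, d.d (v i) := by
  let _ := CStarAlgebra.spectralOrder (Cl s)
  let _ := CStarAlgebra.spectralOrderedRing (Cl s)
  classical
  induction I using Finset.induction_on with
  | empty => simp [PosIn.zero, d.zero]
  | insert a I ha ih =>
    obtain ⟨hp, he⟩ := ih fun i hi j hj => h i (by simp [hi]) j (by simp [hj])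
    rw [Finset.sum_insert ha, Finset.sum_insert ha]
    refine ⟨?_, ?_⟩
    · obtain ⟨x, hx, hx'⟩ := (hv a).exists_coe
      obtain ⟨y, hy, hy'⟩ := hp.exists_coe
      rw [← hx', ← hy']
      exact posIn_coe (add_nonneg hx hy)
    · rw [d.add_eq (hv a) hp, he]
      rw [Finset.mul_sum]
      exact Finset.sum_eq_zero fun i hi => h a (by simp) i (by simp [hi]) fun e => ha (e ▸ hi)

theorem cut_posIn {u : F} (hu : PosIn (Cl s) u) (δ : ℝ) : PosIn (Cl s) (cut δ u) := by
  let _ := CStarAlgebra.spectralOrder (Cl s)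
  let _ := CStarAlgebra.spectralOrderedRing (Cl s)
  obtain ⟨a, ha, rfl⟩ := hu.exists_coe
  rw [cut, ← coe_cfc _ a (by fun_prop) ha.isSelfAdjoint]
  exact posIn_coe (cfc_nonneg fun _ _ => le_max_right _ _)

theorem cut_le {u : F} (hu : PosIn (Cl s) u) {δ : ℝ} (hδ : 0 ≤ δ) : d.d (cut δ u) ≤ d.d u := by
  let _ := CStarAlgebra.spectralOrder F
  let _ := CStarAlgebra.spectralOrderedRing F
  exact d.mono_sqLe (cut_posIn hu δ) hu
    (sqLe_iff.2 (Cuntz.pcut_le (sqLe_iff.1 hu.sqLe) hδ))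

theorem cut_anti {u : F} (hu : PosIn (Cl s) u) {δ δ' : ℝ} (h : δ ≤ δ') :
    d.d (cut δ' u) ≤ d.d (cut δ u) := by
  let _ := CStarAlgebra.spectralOrder F
  let _ := CStarAlgebra.spectralOrderedRing F
  refine d.mono_sqLe (cut_posIn hu δ') (cut_posIn hu δ) (sqLe_iff.2 ?_)
  exact cfc_mono fun t _ => max_le_max (by linarith) le_rfl

theorem le_cut_of_le {u v : F} (hu : PosIn (Cl s) u) (hv : PosIn (Cl s) v) (h : SqLe u v)
    {ε : ℝ} (hε : 0 < ε) : ∃ η, 0 < η ∧ d.d (cut ε u) ≤ d.d (cut η v) := by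
  let _ := CStarAlgebra.spectralOrder (Cl s)
  let _ := CStarAlgebra.spectralOrderedRing (Cl s)
  obtain ⟨a, ha, rfl⟩ := hu.exists_coe
  obtain ⟨b, hb, rfl⟩ := hv.exists_coe
  obtain ⟨η, hη, hle⟩ := Cuntz.exists_pcut ha hb
    (Cuntz.le_of_le ha (by
      obtain ⟨c, hc⟩ := exists_sub_eq h
      exact sub_nonneg.1 (hc ▸ star_mul_self_nonneg c))) hε
  refine ⟨η, hη, d.mono_one (cut_posIn hu ε) (cut_posIn hv η) ?_⟩
  rw [cut, cut, ← coe_cfc _ a (by fun_prop) ha.isSelfAdjoint,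
    ← coe_cfc _ b (by fun_prop) hb.isSelfAdjoint, leIn_one_iff]
  exact hle

theorem star_mul_posIn {z : F} (hz : z ∈ B) : PosIn B (star z * z) ∧ PosIn B (z * star z) :=
  ⟨⟨mul_mem (star_mem hz) hz, z, hz, rfl⟩, mul_mem hz (star_mem hz), star z, star_mem hz, by simp⟩

theorem flip {z : F} (hz : z ∈ Cl s) : d.d (star z * z) = d.d (z * star z) := by
  let _ := CStarAlgebra.spectralOrder (Cl s)
  let _ := CStarAlgebra.spectralOrderedRing (Cl s)
  have key : ∀ w : Cl s, d.d (star (w : F) * w) ≤ d.d ((w : F) * star (w : F)) := fun w =>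
    d.mono_one (star_mul_posIn w.2).1 (star_mul_posIn w.2).2
      (leIn_one_iff.2 (Cuntz.flip_le w))
  refine le_antisymm (key ⟨z, hz⟩) ?_
  simpa using key (star ⟨z, hz⟩)

theorem flip_cut {z : F} (hz : z ∈ Cl s) {δ : ℝ} (hδ : 0 < δ) :
    d.d (cut δ (star z * z)) = d.d (cut δ (z * star z)) := by
  obtain ⟨h1, h2⟩ := exists_factor_cut z hδ
  rw [← h1, ← h2]
  refine d.flip (mul_mem hz ?_)
  have hm : ∀ t : ℝ, 0 < max t δ := fun t => lt_max_of_lt_right hδ
  have hc : Continuous fun t : ℝ => Real.sqrt (max (t - δ) 0 / max t δ) :=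
    ((((continuous_id.sub continuous_const).max continuous_const).div
      (continuous_id.max continuous_const) fun t => (hm t).ne')).sqrt
  have := coe_cfc _ (star (⟨z, hz⟩ : Cl s) * ⟨z, hz⟩) hc (IsSelfAdjoint.star_mul_self _)
  simp only [MulMemClass.coe_mul, StarMemClass.coe_star] at this
  rw [← this]
  exact SetLike.coe_mem _

/-- The state of a bank, read off inside a commuting element `w`. -/
def slot (d : Dim (Cl t)) (φ : Cl s →⋆ₐ[ℂ] F) {w : F} (hw : PosIn (Cl t) w)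
    (hφ : ∀ x, φ x ∈ Cl t) (hc : ∀ x, Commute (φ x) w) (h0 : d.d w ≠ 0) : Dim (Cl s) where
  d u := by
    classical
    exact if h : u ∈ Cl s then d.d (φ ⟨u, h⟩ * w) / d.d w else 0
  one := by
    rw [dif_pos (one_mem (Cl s)), show (⟨1, one_mem (Cl s)⟩ : Cl s) = 1 from rfl, map_one, one_mul,
      div_self h0]
  mono {n m} u v hu hv h := by
    classical
    simp only [dif_pos (hu _).1, dif_pos (hv _).1, ← Finset.sum_div]
    refine div_le_div_of_nonneg_right ?_ (d.nonneg hw)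
    let _ := CStarAlgebra.spectralOrder (Cl t)
    let _ := CStarAlgebra.spectralOrderedRing (Cl t)
    have hp : ∀ {a : F} (ha : PosIn (Cl s) a), PosIn (Cl t) (φ ⟨a, ha.1⟩ * w) := by
      intro a ha
      obtain ⟨ha1, c, hc', hac⟩ := ha
      obtain ⟨b, hb, hbw⟩ := hw.exists_coe
      set C : Cl t := ⟨φ ⟨c, hc'⟩, hφ _⟩
      have hcomm : Commute b (star C * C) := by
        apply Subtype.ext
        show (b : F) * (star (φ ⟨c, hc'⟩) * φ ⟨c, hc'⟩) = star (φ ⟨c, hc'⟩) * φ ⟨c, hc'⟩ * (b : F)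
        rw [hbw, ← map_star, ← map_mul]
        exact (hc _).eq.symm
      have := posIn_coe (hcomm.symm.mul_nonneg (star_mul_self_nonneg C) hb)
      rw [show (⟨a, ha1⟩ : Cl s) = star ⟨c, hc'⟩ * ⟨c, hc'⟩ from Subtype.ext hac]
      simpa [C, hbw, map_mul, map_star] using this
    refine d.mono _ _ (fun i => hp (hu i)) (fun j => hp (hv j)) fun ε hε => ?_
    obtain ⟨x, hx, hb⟩ := h (ε / (‖w‖ + 1)) (by positivity)
    refine ⟨fun j i => φ ⟨x j i, hx j i⟩, fun j i => hφ _, fun i k => ?_⟩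
    have e : (∑ j, star (φ ⟨x j i, hx j i⟩) * (φ ⟨v j, (hv j).1⟩ * w) * φ ⟨x j k, hx j k⟩) -
        (if i = k then φ ⟨u i, (hu i).1⟩ * w else 0) =
        φ ((∑ j, star (⟨x j i, hx j i⟩ : Cl s) * ⟨v j, (hv j).1⟩ * ⟨x j k, hx j k⟩) -
          if i = k then ⟨u i, (hu i).1⟩ else 0) * w := by
      rw [map_sub, sub_mul, map_sum, Finset.sum_mul]
      congr 1
      · refine Finset.sum_congr rfl fun j _ => ?_
        simp only [map_mul, map_star, mul_assoc]
        rw [← (hc _).eq]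
      · split_ifs <;> simp
    rw [e]
    refine (norm_mul_le _ _).trans ?_
    refine le_trans (mul_le_mul (b := ε / (‖w‖ + 1)) ((NonUnitalStarAlgHom.norm_apply_le φ _).trans ?_)
      (le_refl ‖w‖) (norm_nonneg w) (by positivity)) ?_
    · refine le_of_eq_of_le ?_ (hb i k)
      rw [← norm_coe]
      split_ifs <;> simp
    · rw [div_mul_eq_mul_div, div_le_iff₀ (by positivity)]
      nlinarith [norm_nonneg w]

theorem slot_apply (d : Dim (Cl t)) (φ : Cl s →⋆ₐ[ℂ] F) {w : F} (hw : PosIn (Cl t) w)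
    (hφ : ∀ x, φ x ∈ Cl t) (hc : ∀ x, Commute (φ x) w) (h0 : d.d w ≠ 0) (u : Cl s) :
    (d.slot φ hw hφ hc h0).d u = d.d (φ u * w) / d.d w := dif_pos u.2

/-- The product bound: bounds valid for every state of a bank multiply with a commuting element. -/
theorem mul_bound (d : Dim (Cl t)) (φ : Cl s →⋆ₐ[ℂ] F) {w : F} (hw : PosIn (Cl t) w)
    (hφ : ∀ x, φ x ∈ Cl t) (hc : ∀ x, Commute (φ x) w) {u : Cl s} (hu : PosIn (Cl s) (u : F))
    (hp : PosIn (Cl t) (φ u * w)) {a b : ℝ} (ha : 0 ≤ a)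
    (hb : ∀ d' : Dim (Cl s), a ≤ d'.d u ∧ d'.d u ≤ b) :
    a * d.d w ≤ d.d (φ u * w) ∧ d.d (φ u * w) ≤ b * d.d w := by
  by_cases h0 : d.d w = 0
  · have h1 : d.d (φ u * w) ≤ 0 := by
      rw [← h0]
      let _ := CStarAlgebra.spectralOrder F
      let _ := CStarAlgebra.spectralOrderedRing F
      have hun : 0 ≤ φ u := by
        obtain ⟨-, c, hc', huc⟩ := hu
        rw [show u = star (⟨c, hc'⟩ : Cl s) * ⟨c, hc'⟩ from Subtype.ext huc, map_mul, map_star]
        exact star_mul_self_nonneg _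
      refine d.mono_smul hp hw (norm_nonneg (φ u)) (sqLe_iff.2 ?_)
      have := ((Commute.one_left w).smul_left ‖φ u‖).sub_left (hc u) |>.mul_nonneg
        (sub_nonneg.2 (hun.isSelfAdjoint.le_algebraMap_norm_self.trans_eq
          (Algebra.algebraMap_eq_smul_one _))) (sqLe_iff.1 hw.sqLe)
      rw [sub_mul, smul_mul_assoc, one_mul, sub_nonneg] at this
      exact this
    rw [h0, mul_zero, mul_zero]
    exact ⟨d.nonneg hp, h1⟩
  · have h := hb (d.slot φ hw hφ hc h0)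
    rw [slot_apply d φ hw hφ hc h0 u, le_div_iff₀ ((d.nonneg hw).lt_of_ne' h0),
      div_le_iff₀ ((d.nonneg hw).lt_of_ne' h0)] at h
    exact h

end Dim

end

end Vale.Agent.P095.Amen
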