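import Vale.Agent.P095.Amen.Cuntz.Unperf
import Vale.Agent.P095.Amen.Compare.Basic
import Vale.Agent.P101.Bridge.AllDrops

/-!
# P095 Compare: seeds commuting with given elements, from dimension drop data
-/

namespace Vale.Agent.P095.Amen

open scoped CStarAlgebra
open Vale.Agent.P101.KR Vale.Agent.P101.Bridge

noncomputable section

variable {F : Type} [CStarAlgebra F]

/-- Dimension drop data give a seed. -/
theorem seed_of_drop {M : ℕ} [NeZero M] (D : DropDataN M F) : Nonempty (Cuntz.Seed F M) := by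
  let _ : PartialOrder F := CStarAlgebra.spectralOrder F
  have : StarOrderedRing F := CStarAlgebra.spectralOrderedRing F
  obtain ⟨P, v, ⟨hstar, hmul, hpos⟩, hv, hfix⟩ := D
  set h := diagN P
  have hh0 : 0 ≤ h := Finset.sum_nonneg fun a _ => by
    obtain ⟨c, hc⟩ := hpos a
    rw [hc]; exact star_mul_self_nonneg c
  have hhc : ∀ a b, h * P a b = P a b * h := fun a b => by
    show h * P a b = P a b * ∑ c, P c c
    rw [Finset.mul_sum]
    simp only [hmul]
    rw [Finset.sum_ite_eq, if_pos (Finset.mem_univ b)]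
  set e := h * P 0 0
  have he : P 0 0 * P 0 0 = e := by rw [hmul, if_pos rfl]
  have hhv : h * v = v := by
    conv_lhs => rw [← hfix]
    rw [← mul_assoc]
    show e * v = v
    rw [← he, mul_assoc, hfix, hfix]
  have hev : star v * e * v = 1 - h := by
    rw [mul_assoc, show e * v = h * (P 0 0 * v) from mul_assoc _ _ _, hfix, hhv, hv]
  set φ : ℝ → ℝ := fun t => Real.sqrt (1 + max t 0 + max t 0 ^ 2 + max t 0 ^ 3)
  have hφ : Continuous φ := by fun_prop
  set q := cfc φ h
  have hq : star q = q := (cfc_predicate φ h : IsSelfAdjoint _).star_eq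
  have hqq : q * (1 - h) * q = 1 - h * h * h * h := by
    have hsa : IsSelfAdjoint h := hh0.isSelfAdjoint
    have h1 : 1 - h = cfc (fun t : ℝ => 1 - t) h := by
      rw [cfc_sub (fun _ => (1 : ℝ)) (fun t => t) h, cfc_const_one ℝ h, cfc_id' ℝ h]
    have h4 : 1 - h * h * h * h = cfc (fun t : ℝ => 1 - t ^ 4) h := by
      rw [cfc_sub (fun _ => (1 : ℝ)) (fun t => t ^ 4) h, cfc_const_one ℝ h, cfc_pow_id h 4]
      simp only [pow_succ, pow_zero, one_mul]
    rw [h4, h1, ← cfc_mul φ (fun t => 1 - t) h hφ.continuousOn (by fun_prop),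
      ← cfc_mul (fun t => φ t * (1 - t)) φ h (hφ.mul (by fun_prop)).continuousOn hφ.continuousOn]
    refine cfc_congr fun t ht => ?_
    have h0 : 0 ≤ t := spectrum_nonneg_of_nonneg hh0 ht
    simp only [φ, max_eq_left h0]
    rw [mul_right_comm, Real.mul_self_sqrt (by positivity)]
    ring
  refine ⟨⟨e, fun l => P l 0, Fin.cases (v * q) fun l => P 0 l, ?_, ?_⟩⟩
  · intro l m
    rw [hstar, hmul]
  · rw [Fin.sum_univ_succ]
    simp only [Fin.cases_zero, Fin.cases_succ]
    have h1 : star (v * q) * e * (v * q) = 1 - h * h * h * h := by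
      rw [star_mul, hq, ← hqq, ← hev]
      simp only [mul_assoc]
    have h2 : ∀ l, star (P 0 l) * e * P 0 l = h * h * h * P l l := fun l => by
      rw [hstar, show P l 0 * e * P 0 l = P l 0 * (h * P 0 0) * P 0 l from rfl]
      rw [← mul_assoc (P l 0), ← hhc, mul_assoc h, hmul, if_pos rfl, mul_assoc h, mul_assoc h,
        hmul, if_pos rfl]
      simp only [← mul_assoc]
    rw [h1, Finset.sum_congr rfl fun l _ => h2 l, ← Finset.mul_sum]
    show 1 - h * h * h * h + h * h * h * h = 1
    rw [sub_add_cancel]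

/-- A seed of every size at least two commutes with any countable set. -/
theorem exists_seed_commutes (hF : HasCopies F) (hK : HasCentralCopy F) (hn : NoCharacter F)
    {M : ℕ} (hM : 2 ≤ M) {S : Set F} (hS : S.Countable) :
    ∃ D : Cuntz.Seed F M, D.CommutesWith S := by
  have : NeZero M := ⟨by omega⟩
  obtain ⟨D⟩ := allDrops_of F hF hn M hM
  obtain ⟨E⟩ := seed_of_drop D
  set s : Set F := S ∪ ({E.e} ∪ Set.range E.s ∪ Set.range E.w)
  have hs : s.Countable :=
    hS.union (((Set.countable_singleton _).union (Set.countable_range _)).union (Set.countable_range _))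
  obtain ⟨κ, hκ⟩ := hK s hs
  set e' : Cl s := ⟨E.e, subset_Cl s (by simp [s])⟩
  set s' : Fin M → Cl s := fun l => ⟨E.s l, subset_Cl s (by simp [s])⟩
  set w' : Fin (M + 1) → Cl s := fun j => ⟨E.w j, subset_Cl s (by simp [s])⟩
  have hsm : ∀ l m, star (s' l) * s' m = if l = m then e' else 0 := fun l m => by
    apply Subtype.ext
    split_ifs with hlm <;> simp [s', e', E.star_s_mul, hlm]
  have hw : ∑ j, star (w' j) * e' * w' j = 1 :=
    Subtype.ext (by simpa [w', e'] using E.sum_w)
  refine ⟨⟨κ e', fun l => κ (s' l), fun j => κ (w' j), fun l m => ?_, ?_⟩, ?_⟩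
  · rw [← map_star, ← map_mul, hsm]
    split_ifs <;> simp
  · simp only [← map_star, ← map_mul, ← map_sum, hw, map_one]
  · have hy : ∀ (a : Cl s) y, y ∈ S → Commute (κ a) y ∧ Commute (star (κ a)) y := fun a y hy =>
      ⟨hκ a ⟨y, subset_Cl s (Or.inl hy)⟩, by
        rw [← map_star]; exact hκ (star a) ⟨y, subset_Cl s (Or.inl hy)⟩⟩
    exact ⟨fun y h => (hy e' y h).1, fun l y h => hy (s' l) y h, fun j y h => hy (w' j) y h⟩

end

end Vale.Agent.P095.Amen
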