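import Vale.Agent.P095.Amen.States
import Vale.Agent.P095.Amen.Compare.Seeds

/-!
# P095 Compare: a strict inequality of all states gives subequivalence
-/

namespace Vale.Agent.P095.Amen

open scoped CStarAlgebra
open Vale.Agent.P101.KR

noncomputable section

variable {F : Type} [CStarAlgebra F]

section Monoid

variable (B : Type*) [CStarAlgebra B] [PartialOrder B] [StarOrderedRing B]

/-- The underlying multiset. -/
abbrev toMultiset {B : Type*} [CStarAlgebra B] (m : Cuntz.Cu B) : Multiset B := m

/-- The families of positive elements. -/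
def posFamilies : AddSubmonoid (Cuntz.Cu B) where
  carrier := {m | ∀ a ∈ toMultiset m, 0 ≤ a}
  zero_mem' a ha := absurd ha (Multiset.notMem_zero a)
  add_mem' hm hm' a ha := (Multiset.mem_add.1 ha).elim (hm a) (hm' a)

variable {B}

omit [StarOrderedRing B] in
theorem single_mem_posFamilies {a : B} (ha : 0 ≤ a) : Cuntz.single a ∈ posFamilies B := by
  show ∀ x ∈ toMultiset (Cuntz.single a), 0 ≤ x
  intro x hx
  have : x = a := by simpa [Cuntz.cls, toMultiset] using hx
  exact this ▸ ha

omit [PartialOrder B] [StarOrderedRing B] in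
theorem cls_eq_sum {ι : Type*} [Fintype ι] (a : ι → B) :
    Cuntz.cls a = ∑ i, Cuntz.single (a i) := by
  show (Finset.univ.val.map a : Multiset B) = _
  have h : ∀ x : B, toMultiset (Cuntz.single x) = {x} := fun x => by simp [Cuntz.cls, toMultiset]
  have h2 : ∀ I : Finset ι, toMultiset (∑ i ∈ I, Cuntz.single (a i)) = I.val.map a := by
    classical
    intro I
    induction I using Finset.induction_on with
    | empty => rfl
    | insert x I hx ih =>
      rw [Finset.sum_insert hx]
      show toMultiset (Cuntz.single (a x)) + toMultiset (∑ i ∈ I, Cuntz.single (a i)) = _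
      rw [ih, h, Finset.insert_val, Multiset.ndinsert_of_notMem (by simpa using hx),
        Multiset.map_cons, Multiset.singleton_add]
  exact (h2 Finset.univ).symm

/-- Every positive family is below a multiple of the unit. -/
theorem exists_le_nsmul_one {m : Cuntz.Cu B} (hm : m ∈ posFamilies B) :
    ∃ n : ℕ, m ≤ n • Cuntz.single (1 : B) := by
  obtain ⟨n, a, rfl⟩ := Cuntz.exists_rep m
  refine ⟨n, ?_⟩
  rw [Cuntz.nsmul_cls, Cuntz.cls_le_cls]
  have h : ∀ i, Cuntz.Le (a i) 1 := fun i => by
    have ha : 0 ≤ a i := (show ∀ x ∈ toMultiset (Cuntz.cls a), 0 ≤ x from hm) _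
      (by simp [Cuntz.cls, toMultiset])
    refine Cuntz.le_of_le_smul ha ?_ (norm_nonneg (a i))
    rw [← Algebra.algebraMap_eq_smul_one]
    exact ha.isSelfAdjoint.le_algebraMap_norm_self
  classical
  intro ε hε
  choose y hy using fun i => Cuntz.le_iff.1 (h i) ε hε
  refine ⟨fun j i => if i = j then y i else 0, fun i k => ?_⟩
  rw [Finset.sum_eq_single i]
  · by_cases hik : i = k
    · subst hik; simpa using hy i
    · simp [hik, Ne.symm hik, hε.le]
  · intro j _ hj
    simp [Ne.symm hj]
  · simp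

omit [PartialOrder B] [StarOrderedRing B] in
theorem nsmul_mono (n : ℕ) {x y : Cuntz.Cu B} (h : x ≤ y) : n • x ≤ n • y := by
  induction n with
  | zero => simp
  | succ n ih =>
    rw [succ_nsmul, succ_nsmul]
    refine (Cuntz.Cu.add_le_add_right' _ _ _ ih).trans ?_
    rw [add_comm (n • y) x, add_comm (n • y) y]
    exact Cuntz.Cu.add_le_add_right' _ _ _ h

end Monoid

variable {s : Set F}

theorem sub_coe {ι κ : Type*} [Fintype ι] [Fintype κ] {a : ι → Cl s} {b : κ → Cl s}
    (h : Cuntz.Sub a b) : Cuntz.Sub (fun i => (a i : F)) (fun j => (b j : F)) := by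
  intro ε hε
  obtain ⟨x, hx⟩ := h ε hε
  refine ⟨fun j i => (x j i : F), fun i k => ?_⟩
  refine le_of_eq_of_le ?_ (hx i k)
  conv_rhs => rw [← norm_coe]
  split_ifs <;> simp

open Classical in
/-- A state on the positive families of `Cl s` is a `Dim`. -/
def dimOfState [PartialOrder (Cl s)] [StarOrderedRing (Cl s)] (f : posFamilies (Cl s) → ℝ)
    (hf : IsMonState ⟨Cuntz.single (1 : Cl s), single_mem_posFamilies zero_le_one⟩ f) :
    Dim (Cl s) where
  d u := if h : ∃ a : Cl s, 0 ≤ a ∧ (a : F) = u then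
    f ⟨Cuntz.single h.choose, single_mem_posFamilies h.choose_spec.1⟩ else 0
  one := by
    have h : ∃ a : Cl s, 0 ≤ a ∧ (a : F) = 1 := ⟨1, zero_le_one, rfl⟩
    rw [dif_pos h]
    have e : h.choose = 1 := Subtype.ext h.choose_spec.2
    simp only [e]
    exact hf.unit
  mono {n m} u v hu hv hle := by
    obtain ⟨a, ha⟩ := Classical.axiomOfChoice fun i => (hu i).exists_coe
    obtain ⟨b, hb⟩ := Classical.axiomOfChoice fun j => (hv j).exists_coe
    obtain rfl : u = fun i => (a i : F) := funext fun i => (ha i).2.symm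
    obtain rfl : v = fun j => (b j : F) := funext fun j => (hb j).2.symm
    have key : ∀ {k : ℕ} (c : Fin k → Cl s) (hc : ∀ i, 0 ≤ c i),
        (∑ i, if h : ∃ x : Cl s, 0 ≤ x ∧ (x : F) = c i then
          f ⟨Cuntz.single h.choose, single_mem_posFamilies h.choose_spec.1⟩ else 0) =
        f ⟨Cuntz.cls c, by rw [cls_eq_sum]; exact sum_mem fun i _ => single_mem_posFamilies (hc i)⟩ := by
      intro k c hc
      let φ := AddMonoidHom.mk' f hf.add
      rw [show f = φ from rfl]
      have e : (⟨Cuntz.cls c, by rw [cls_eq_sum]; exact sum_mem fun i _ => single_mem_posFamilies (hc i)⟩ :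
          posFamilies (Cl s)) = ∑ i, ⟨Cuntz.single (c i), single_mem_posFamilies (hc i)⟩ :=
        Subtype.ext (by rw [AddSubmonoid.coe_finsetSum]; exact cls_eq_sum c)
      rw [e, map_sum]
      refine Finset.sum_congr rfl fun i _ => ?_
      have h : ∃ x : Cl s, 0 ≤ x ∧ (x : F) = c i := ⟨c i, hc i, rfl⟩
      rw [dif_pos h]
      congr 2
      exact congrArg Cuntz.single (Subtype.ext h.choose_spec.2)
    rw [key a fun i => (ha i).1, key b fun j => (hb j).1]
    exact hf.mono (Cuntz.cls_le_cls.2 (leIn_iff_sub.1 hle))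

/-- States deciding `u` against `k` copies of a full `v` give `u ≲ k v`. -/
theorem sub_of_states (hF : HasCopies F) (hK : HasCentralCopy F) (hn : NoCharacter F)
    {u v : F} (hu : PosIn (Cl s) u) (hv : PosIn (Cl s) v) {N : ℕ} (y : Fin N → F)
    (hy : ∀ i, y i ∈ Cl s) (hsum : ∑ i, star (y i) * v * y i = 1) {k : ℕ} (hk : 0 < k) (q : ℕ)
    (hst : ∀ d : Dim (Cl s), (1 : ℝ) + q * d.d u < q * (k * d.d v)) :
    Cuntz.Sub (fun _ : Unit => u) (fun _ : Fin k => v) := by
  classical
  let _ := CStarAlgebra.spectralOrder (Cl s)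
  let _ := CStarAlgebra.spectralOrderedRing (Cl s)
  obtain ⟨a, ha, rfl⟩ := hu.exists_coe
  obtain ⟨b, hb, rfl⟩ := hv.exists_coe
  let S := posFamilies (Cl s)
  let e : S := ⟨Cuntz.single 1, single_mem_posFamilies zero_le_one⟩
  let U : S := ⟨Cuntz.single a, single_mem_posFamilies ha⟩
  let V : S := ⟨Cuntz.single b, single_mem_posFamilies hb⟩
  have hVk : V ≤ k • V := by
    show Cuntz.single b ≤ k • Cuntz.single b
    rw [Cuntz.nsmul_cls, Cuntz.cls_le_cls]
    exact .of_injective (fun _ => (⟨0, hk⟩ : Fin k)) (fun _ _ _ => rfl) fun _ => rfl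
  have hfull : e ≤ N • (k • V) := by
    have h1 : e ≤ N • V := by
      show Cuntz.single 1 ≤ N • Cuntz.single b
      rw [Cuntz.nsmul_cls, Cuntz.cls_le_cls]
      refine fun ε hε => ⟨fun j _ => ⟨y j, hy j⟩, fun i i' => ?_⟩
      rw [if_pos (Subsingleton.elim i i'), ← norm_coe]
      simp [hsum, hε.le]
    refine h1.trans ?_
    show N • Cuntz.single b ≤ N • k • Cuntz.single b
    exact nsmul_mono N hVk
  obtain ⟨M, hM⟩ := succ_nsmul_le_of_states (S := S)
    (fun x y z h => Cuntz.Cu.add_le_add_right' _ _ _ h) (fun x => Cuntz.Cu.zero_le' _)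
    (fun x => exists_le_nsmul_one x.2) (u := U) hfull (q := q) (fun f hf => by
      let φ := AddMonoidHom.mk' f hf.add
      have h := hst (dimOfState f hf)
      have hd : ∀ (c : Cl s) (hc : 0 ≤ c),
          (dimOfState f hf).d (c : F) = f ⟨Cuntz.single c, single_mem_posFamilies hc⟩ := by
        intro c hc
        have h : ∃ x : Cl s, 0 ≤ x ∧ (x : F) = c := ⟨c, hc, rfl⟩
        show dite _ _ _ = _
        rw [dif_pos h]
        congr 2
        exact congrArg Cuntz.single (Subtype.ext h.choose_spec.2)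
      rw [hd a ha, hd b hb] at h
      show (1 : ℝ) + q * f U < q * φ (k • V)
      rw [map_nsmul, nsmul_eq_mul]
      exact h)
  have hM' : Cuntz.Sub (fun _ : Fin (3 * M + 2 + 1) => a)
      (fun p : Fin (3 * M + 2) × Fin k => b) := by
    have h3 : (3 * M + 2 + 1) • Cuntz.single a ≤ ((3 * M + 2) * k) • Cuntz.single b := by
      have h1 : (3 * (M + 1)) • Cuntz.single a ≤ (3 * M * k) • Cuntz.single b := by
        have h0 : (M + 1) • Cuntz.single a ≤ (M * k) • Cuntz.single b := by
          rw [mul_smul]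
          exact hM
        rw [mul_smul, mul_assoc, mul_smul 3 (M * k)]
        exact nsmul_mono 3 h0
      refine le_trans h1 ?_
      rw [Cuntz.nsmul_cls, Cuntz.nsmul_cls, Cuntz.cls_le_cls]
      exact .of_injective (Fin.castLE (by nlinarith)) (Fin.castLE_injective _) fun _ => rfl
    rw [Cuntz.nsmul_cls, Cuntz.nsmul_cls, Cuntz.cls_le_cls] at h3
    exact h3.trans (.of_equiv finProdFinEquiv.symm fun _ => rfl)
  obtain ⟨T, hT, hsub⟩ := Cuntz.unperforated (u := (a : F)) (v := fun _ : Fin k => (b : F))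
    (sub_coe hM')
  exact hsub (exists_seed_commutes hF hK hn (by omega) hT)

end

end Vale.Agent.P095.Amen
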