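import Vale.Agent.P095.Amen.Targets
import Vale.Agent.P095.Amen.Compare.Core
import Vale.Agent.P101.KR.Polar

/-!
# P095 Compare: the comparison and witness targets
-/

namespace Vale.Agent.P095.Amen

open scoped CStarAlgebra
open Vale.Agent.P101.KR

noncomputable section

variable {F : Type} [CStarAlgebra F]

theorem bump_mul_sqrt_cut (u : F) {η : ℝ} (hη : 0 < η) :
    bump η u * cfc (fun t : ℝ => Real.sqrt (max (t - η) 0)) u =
      cfc (fun t : ℝ => Real.sqrt (max (t - η) 0)) u := by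
  rw [bump, ← cfc_mul ..]
  refine cfc_congr fun t _ => ?_
  rcases le_total t η with h | h
  · simp [max_eq_right (show t - η ≤ 0 by linarith)]
  · rw [min_eq_left, one_mul]
    refine le_max_of_le_right ?_
    rw [le_div_iff₀ (half_pos hη)]
    linarith

/-- Comparison. -/
theorem compare_of : CompareTarget := by
  intro F _ hF hK hn u v a b δ hfull hua hvb hab hδ
  obtain ⟨s₁, hs₁, hu, hu'⟩ := hua
  obtain ⟨s₂, hs₂, hv, hv'⟩ := hvb
  obtain ⟨N, y, hy⟩ := hfull
  set s := s₁ ∪ s₂ ∪ Set.range y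
  have h₁ : Cl s₁ ≤ Cl s := Cl_mono fun x hx => Or.inl (Or.inl hx)
  have h₂ : Cl s₂ ≤ Cl s := Cl_mono fun x hx => Or.inl (Or.inr hx)
  obtain ⟨q, hq⟩ := exists_nat_gt (1 / (b - a))
  have hsub : Cuntz.Sub (fun _ : Unit => u) (fun _ : Fin 1 => v) := by
    refine sub_of_states (s := s) hF hK hn (hu.mono h₁) (hv.mono h₂) y
      (fun i => subset_Cl s (Or.inr ⟨i, rfl⟩)) hy one_pos q fun d => ?_
    have ha := hu' (d.restrict h₁)
    have hb := hv' (d.restrict h₂)
    simp only [Dim.restrict] at ha hb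
    rw [div_lt_iff₀ (by linarith)] at hq
    have hq0 : (0 : ℝ) ≤ q := Nat.cast_nonneg q
    rw [Nat.cast_one, one_mul]
    nlinarith
  let _ : PartialOrder F := CStarAlgebra.spectralOrder F
  have : StarOrderedRing F := CStarAlgebra.spectralOrderedRing F
  have hu0 : 0 ≤ u := sqLe_iff.1 hu.sqLe
  have hv0 : 0 ≤ v := sqLe_iff.1 hv.sqLe
  have hle : Cuntz.Le u v :=
    hsub.trans (.of_injective (fun _ => ()) (fun x y _ => Subsingleton.elim x y) fun _ => rfl)
  obtain ⟨η, hη, h1⟩ := Cuntz.exists_pcut hu0 hv0 hle (half_pos hδ)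
  obtain ⟨w, hw⟩ := Cuntz.le_iff.1 h1 (δ / 4) (by positivity)
  obtain ⟨r, hr, -⟩ := Cuntz.exists_conj (Cuntz.pcut_nonneg u (δ / 2)) (Cuntz.pcut_nonneg v η)
    (by positivity) hw
  rw [Cuntz.pcut_cut hu0.isSelfAdjoint (by positivity), show δ / 2 + 2 * (δ / 4) = δ by ring] at hr
  set R := cfc (fun t : ℝ => Real.sqrt (max (t - η) 0)) v
  have hR : star R = R := (cfc_predicate _ v : IsSelfAdjoint _).star_eq
  have hRR : R * R = Cuntz.pcut v η := by
    rw [← cfc_mul ..]
    exact cfc_congr fun t _ => Real.mul_self_sqrt (le_max_right _ _)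
  set p := cfc (fun t : ℝ => Real.sqrt (max (t - δ) 0)) u
  have hp : p * p = cut δ u := by
    rw [← cfc_mul ..]
    exact cfc_congr fun t _ => Real.mul_self_sqrt (le_max_right _ _)
  have hz : p * p ≤ star (R * r) * (R * r) := by
    rw [hp, cut_eq_pcut, star_mul, hR, mul_assoc, ← mul_assoc R, hRR, ← mul_assoc]
    exact hr
  obtain ⟨d, hd⟩ := sqLe_iff.2 hz
  obtain ⟨x, hx, hfix⟩ := polar_of F (R * r) p d
    (cfc_predicate _ u : IsSelfAdjoint _).star_eq hd
  exact ⟨x, η, hη, hx.trans hp,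
    hfix _ (by rw [← mul_assoc, bump_mul_sqrt_cut v hη])⟩

/-- Witnesses of bounded size. -/
theorem witness_of : WitnessTarget := by
  intro c hc
  refine ⟨⌈3 / c⌉₊, fun F _ hF hK hn v δ hv hδ hfull hge => ?_⟩
  set K := ⌈3 / c⌉₊
  have hK0 : 0 < K := Nat.ceil_pos.2 (by positivity)
  obtain ⟨s₂, hs₂, hw, hw'⟩ := hge
  obtain ⟨N, y, hy⟩ := hfull
  set s := s₂ ∪ Set.range y
  have h₂ : Cl s₂ ≤ Cl s := Cl_mono fun x hx => Or.inl hx
  have hsub : Cuntz.Sub (fun _ : Unit => (1 : F)) (fun _ : Fin K => cut δ v) := by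
    refine sub_of_states (s := s) hF hK hn PosIn.one (hw.mono h₂) y
      (fun i => subset_Cl s (Or.inr ⟨i, rfl⟩)) hy hK0 1 fun d => ?_
    have hb := hw' (d.restrict h₂)
    simp only [Dim.restrict] at hb
    have hc3 : (3 : ℝ) ≤ K * c := (div_le_iff₀ hc).1 (Nat.le_ceil _)
    have hK' : (0 : ℝ) ≤ K := Nat.cast_nonneg K
    rw [d.one, Nat.cast_one, one_mul, one_mul]
    nlinarith
  let _ : PartialOrder F := CStarAlgebra.spectralOrder F
  have : StarOrderedRing F := CStarAlgebra.spectralOrderedRing F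
  rcases subsingleton_or_nontrivial F with hs | hs
  · exact ⟨0, fun i => by simp [div_nonneg, Real.sqrt_nonneg],
      Subsingleton.elim _ _⟩
  obtain ⟨x, hx⟩ := hsub (1 / 2) (by norm_num)
  have hx' := hx () ()
  rw [if_pos rfl] at hx'
  set X := ∑ j, star (x j ()) * cut δ v * x j ()
  have hX0 : 0 ≤ X := Finset.sum_nonneg fun j _ =>
    star_left_conjugate_nonneg (Cuntz.pcut_nonneg v δ) _
  have hspec : ∀ t ∈ spectrum ℝ X, (1 / 2 : ℝ) ≤ t := by
    intro t ht
    have h1 : ‖cfc (fun t : ℝ => t - 1) X‖ ≤ 1 / 2 := by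
      rw [cfc_sub (fun t : ℝ => t) (fun _ => 1) X, cfc_id' ℝ X hX0.isSelfAdjoint,
        cfc_const_one ℝ X hX0.isSelfAdjoint]
      exact hx'
    have := (norm_apply_le_norm_cfc (fun t : ℝ => t - 1) X ht (by fun_prop) hX0.isSelfAdjoint).trans h1
    rw [Real.norm_eq_abs] at this
    linarith [(abs_le.1 this).1]
  set ρ : ℝ → ℝ := fun t => (Real.sqrt (max t (1 / 4)))⁻¹
  have hρ : Continuous ρ := ((continuous_id.max continuous_const)).sqrt.inv₀ fun t =>
    (Real.sqrt_pos.2 (lt_max_of_lt_right (by norm_num))).ne'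
  set R := cfc ρ X
  have hR : star R = R := (cfc_predicate ρ X : IsSelfAdjoint _).star_eq
  have hRXR : R * X * R = 1 := by
    rw [Cuntz.cfc_mul_self_mul hX0.isSelfAdjoint hρ hρ]
    refine (cfc_congr fun t ht => ?_).trans (cfc_const_one ℝ X hX0.isSelfAdjoint)
    have h := hspec t ht
    simp only [ρ, max_eq_left (show 1 / 4 ≤ t by linarith)]
    rw [mul_right_comm, ← mul_inv, Real.mul_self_sqrt (by linarith), inv_mul_cancel₀ (by linarith)]
  set g : ℝ → ℝ := fun t => (Real.sqrt (max t δ))⁻¹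
  have hg : Continuous g := ((continuous_id.max continuous_const)).sqrt.inv₀ fun t =>
    (Real.sqrt_pos.2 (lt_max_of_lt_right hδ)).ne'
  set r : ℝ → ℝ := fun t => Real.sqrt (max (t - δ) 0)
  have hr : Continuous r := by fun_prop
  set G := cfc g v
  set S := cfc r v
  have hG : star G = G := (cfc_predicate g v : IsSelfAdjoint _).star_eq
  have hS : star S = S := (cfc_predicate r v : IsSelfAdjoint _).star_eq
  have hv0 : 0 ≤ v := sqLe_iff.1 hv
  have hSS : S * S = cut δ v := by
    rw [← cfc_mul ..]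
    exact cfc_congr fun t _ => Real.mul_self_sqrt (le_max_right _ _)
  have hSvS : S * (G * v * G) * S = cut δ v := by
    rw [Cuntz.cfc_mul_self_mul hv0.isSelfAdjoint hg hg,
      ← cfc_mul r (fun t => g t * t * g t) v hr.continuousOn
        ((hg.mul continuous_id).mul hg).continuousOn,
      ← cfc_mul (fun t => r t * (g t * t * g t)) r v
        (hr.mul ((hg.mul continuous_id).mul hg)).continuousOn hr.continuousOn]
    refine cfc_congr fun t ht => ?_
    simp only [r, g]
    rcases le_total t δ with h | h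
    · simp [max_eq_right (show t - δ ≤ 0 by linarith)]
    · rw [max_eq_left h]
      have ht0 : 0 < t := hδ.trans_le h
      field_simp
      rw [Real.sq_sqrt ht0.le, Real.sq_sqrt (le_max_right _ _)]
  set z : Fin K → F := fun i => S * x i () * R
  have hzz : ∑ i, star (z i) * z i = 1 := by
    rw [← hRXR, Finset.mul_sum, Finset.sum_mul]
    refine Finset.sum_congr rfl fun i _ => ?_
    simp only [z, star_mul, hR, hS, ← hSS, mul_assoc]
  refine ⟨fun i => G * z i, fun i => ?_, ?_⟩
  · have hz : ‖z i‖ ≤ 1 := by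
      have h1 : star (z i) * z i ≤ 1 := hzz ▸ Finset.single_le_sum
        (f := fun i => star (z i) * z i) (fun j _ => star_mul_self_nonneg _) (Finset.mem_univ i)
      have h2 := CStarAlgebra.norm_le_norm_of_nonneg_of_le (star_mul_self_nonneg _) h1
      rw [CStarRing.norm_star_mul_self, norm_one] at h2
      nlinarith [norm_nonneg (z i)]
    have hGn : ‖G‖ ≤ 1 / Real.sqrt δ := by
      refine norm_cfc_le (by positivity) fun t _ => ?_
      rw [Real.norm_eq_abs, abs_of_nonneg (by positivity), one_div]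
      exact inv_anti₀ (Real.sqrt_pos.2 hδ) (Real.sqrt_le_sqrt (le_max_right _ _))
    refine (norm_mul_le _ _).trans ?_
    calc ‖G‖ * ‖z i‖ ≤ 1 / Real.sqrt δ * 1 := by gcongr
      _ ≤ 2 / Real.sqrt δ := by rw [mul_one]; gcongr; norm_num
  · rw [← hRXR, Finset.mul_sum, Finset.sum_mul]
    refine Finset.sum_congr rfl fun i _ => ?_
    rw [← hSvS]
    simp only [z, star_mul, hG, hR, hS, mul_assoc]

end

end Vale.Agent.P095.Amen
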