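import Vale.Agent.P095.Amen.Defs
import Vale.Agent.P095.Amen.Cuntz.Order

/-!
# P095 Compare: functional calculus of `z*z` against `zz*`, and inside `Cl s`
-/

namespace Vale.Agent.P095.Amen

open scoped CStarAlgebra
open Vale.Agent.P101.KR

noncomputable section

variable {F : Type} [CStarAlgebra F]

theorem cut_eq_pcut (δ : ℝ) (u : F) : cut δ u = Cuntz.pcut u δ := rfl

/-- `z f(z*z) = f(zz*) z`. -/
theorem mul_cfc_star_mul_self (z : F) {f : ℝ → ℝ} (hf : Continuous f) :
    z * cfc f (star z * z) = cfc f (z * star z) * z := by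
  rcases subsingleton_or_nontrivial F with hF | hF
  · exact Subsingleton.elim _ _
  set P := star z * z
  set Q := z * star z
  set r : ℝ := max ‖P‖ ‖Q‖
  have hP : IsSelfAdjoint P := IsSelfAdjoint.star_mul_self z
  have hQ : IsSelfAdjoint Q := IsSelfAdjoint.mul_star_self z
  refine eq_of_forall_dist_le fun ε hε => ?_
  obtain ⟨q, hq⟩ := exists_polynomial_near_of_continuousOn (-r) r f hf.continuousOn
    (ε / (2 * (‖z‖ + 1))) (by positivity)
  have hnear : ∀ {a : F}, IsSelfAdjoint a → ‖a‖ ≤ r →
      ‖Polynomial.aeval a q - cfc f a‖ ≤ ε / (2 * (‖z‖ + 1)) := by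
    intro a ha har
    rw [← cfc_polynomial q a ha, ← cfc_sub q.eval f a q.continuous.continuousOn hf.continuousOn]
    refine norm_cfc_le (by positivity) fun t ht => ?_
    have := (spectrum.norm_le_norm_of_mem ht).trans har
    rw [Real.norm_eq_abs] at this ⊢
    exact (hq t ⟨(abs_le.1 this).1, (abs_le.1 this).2⟩).le
  have hpol : z * Polynomial.aeval P q = Polynomial.aeval Q q * z := by
    clear hq hnear
    induction q using Polynomial.induction_on' with
    | add p p' hp hp' => rw [map_add, map_add, mul_add, add_mul, hp, hp']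
    | monomial n c =>
      have : SemiconjBy z P Q := by simp [SemiconjBy, P, Q, mul_assoc]
      rw [Polynomial.aeval_monomial, Polynomial.aeval_monomial, ← mul_assoc, ← Algebra.commutes c z,
        mul_assoc, (this.pow_right n).eq, mul_assoc]
  rw [dist_eq_norm, show z * cfc f P - cfc f Q * z =
    z * (cfc f P - Polynomial.aeval P q) - (cfc f Q - Polynomial.aeval Q q) * z by
      rw [mul_sub, sub_mul, hpol]; abel]
  refine (norm_sub_le _ _).trans ?_
  have h1 : ‖z * (cfc f P - Polynomial.aeval P q)‖ ≤ ‖z‖ * (ε / (2 * (‖z‖ + 1))) := by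
    refine (norm_mul_le _ _).trans (mul_le_mul_of_nonneg_left ?_ (norm_nonneg z))
    rw [norm_sub_rev]; exact hnear hP (le_max_left _ _)
  have h2 : ‖(cfc f Q - Polynomial.aeval Q q) * z‖ ≤ (ε / (2 * (‖z‖ + 1))) * ‖z‖ := by
    refine (norm_mul_le _ _).trans (mul_le_mul_of_nonneg_right ?_ (norm_nonneg z))
    rw [norm_sub_rev]; exact hnear hQ (le_max_right _ _)
  refine (add_le_add h1 h2).trans ?_
  rw [div_mul_eq_mul_div, ← mul_div_assoc, ← add_div, div_le_iff₀ (by positivity)]
  nlinarith [norm_nonneg z]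

/-- Cut-downs of `z*z` and `zz*` have a common factor. -/
theorem exists_factor_cut (z : F) {δ : ℝ} (hδ : 0 < δ) :
    star (z * cfc (fun t : ℝ => Real.sqrt (max (t - δ) 0 / max t δ)) (star z * z)) *
        (z * cfc (fun t : ℝ => Real.sqrt (max (t - δ) 0 / max t δ)) (star z * z)) =
      cut δ (star z * z) ∧
    z * cfc (fun t : ℝ => Real.sqrt (max (t - δ) 0 / max t δ)) (star z * z) *
        star (z * cfc (fun t : ℝ => Real.sqrt (max (t - δ) 0 / max t δ)) (star z * z)) =
      cut δ (z * star z) := by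
  have hm : ∀ t : ℝ, 0 < max t δ := fun t => lt_max_of_lt_right hδ
  set φ : ℝ → ℝ := fun t => Real.sqrt (max (t - δ) 0 / max t δ)
  have hφ : Continuous φ :=
    ((((continuous_id.sub continuous_const).max continuous_const).div
      (continuous_id.max continuous_const) fun t => (hm t).ne')).sqrt
  have hid : ∀ t : ℝ, φ t * t * φ t = max (t - δ) 0 := fun t => by
    rw [show φ t * t * φ t = φ t * φ t * t by ring, Real.mul_self_sqrt (by positivity)]
    rcases le_total t δ with h | h
    · simp [max_eq_right (show t - δ ≤ 0 by linarith)]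
    · rw [max_eq_left h, div_mul_cancel₀]
      linarith
  have hs : ∀ a : F, star (cfc φ a) = cfc φ a := fun a =>
    (cfc_predicate φ a : IsSelfAdjoint _).star_eq
  have key : ∀ a : F, IsSelfAdjoint a → cfc φ a * a * cfc φ a = cut δ a := fun a ha => by
    conv_lhs => arg 1; arg 2; rw [← cfc_id' ℝ a ha]
    rw [← cfc_mul φ (fun t => t) a hφ.continuousOn continuousOn_id,
      ← cfc_mul (fun t => φ t * t) φ a (hφ.mul continuous_id).continuousOn hφ.continuousOn]
    exact cfc_congr fun t _ => hid t
  refine ⟨?_, ?_⟩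
  · rw [star_mul, hs, ← key _ (IsSelfAdjoint.star_mul_self z)]
    simp only [mul_assoc]
  · rw [star_mul, hs, ← key _ (IsSelfAdjoint.mul_star_self z)]
    rw [mul_assoc z, ← mul_assoc (cfc φ _), ← mul_assoc z, ← mul_assoc z,
      mul_cfc_star_mul_self z hφ]
    have h2 : cfc φ (star z * z) * star z = star z * cfc φ (z * star z) := by
      simpa [hs] using (congrArg star (mul_cfc_star_mul_self z hφ))
    simp only [mul_assoc]
    rw [h2]

/-- Functional calculus inside `Cl s` agrees with that of `F`. -/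
theorem coe_cfc {s : Set F} (f : ℝ → ℝ) (a : Cl s) (hf : Continuous f) (ha : IsSelfAdjoint a) :
    ((cfc f a : Cl s) : F) = cfc f (a : F) :=
  StarAlgHomClass.map_cfc (Cl s).subtype f a hf.continuousOn continuous_subtype_val ha
    (ha.map (Cl s).subtype)

/-- The norm of `Cl s` is that of `F`. -/
theorem norm_coe {s : Set F} (a : Cl s) : ‖((a : Cl s) : F)‖ = ‖a‖ := rfl

/-- An inequality in `F` between elements of `Cl s` has a witness in `Cl s`. -/
theorem exists_sub_eq {s : Set F} {a b : Cl s} (h : SqLe (a : F) b) :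
    ∃ c : Cl s, b - a = star c * c := by
  let _ := CStarAlgebra.spectralOrder F
  let _ := CStarAlgebra.spectralOrderedRing F
  obtain ⟨d, hd⟩ := h
  have h0 : (0 : F) ≤ (b : F) - a := hd ▸ star_mul_self_nonneg d
  have hsa : IsSelfAdjoint (b - a) := Subtype.ext (by simpa using h0.isSelfAdjoint.star_eq)
  refine ⟨cfc Real.sqrt (b - a), Subtype.ext ?_⟩
  rw [(cfc_predicate Real.sqrt (b - a) : IsSelfAdjoint _).star_eq, MulMemClass.coe_mul,
    coe_cfc _ _ Real.continuous_sqrt hsa, AddSubgroupClass.coe_sub, ← cfc_mul ..]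
  conv_lhs => rw [← cfc_id' ℝ ((b : F) - a)]
  exact cfc_congr fun t ht => (Real.mul_self_sqrt (spectrum_nonneg_of_nonneg h0 ht)).symm

end

end Vale.Agent.P095.Amen
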